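import Vale.Agent.P011I.IF
import Vale.Agent.P092GP.Bru

/-!
The pinning of a split group: the interfaces.
-/

set_option autoImplicit false
set_option linter.all false

namespace Vale.Agent.P011IR

open Matrix Vale.Agent.P183CH Vale.Agent.P183CH.Chev Vale.Agent.P092AG Vale.Agent.P092GP
  Vale.Agent.P011I

/-- The structure theory holds, with the same torus, over extensions which contain any two given
elements of `K`. -/
def Ext {n : ℕ} {k : Type} [Field k] (K : Type) [Field K] [Algebra k K]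
    (G : Subgroup (GL (Fin n) k)) : Prop :=
  ∀ a b : K, ∃ (l : Type) (_ : NontriviallyNormedField l) (_ : ProperSpace l) (f : k →+* l)
    (j : l →+* K) (G' : Subgroup (GL (Fin n) l)) (𝔤' : Submodule l (Mt n l)),
    (∀ x, j (f x) = algebraMap k K x) ∧ a ∈ j.range ∧ b ∈ j.range ∧ Red G' 𝔤' ∧ Y G' = Y G ∧
      ∀ g : GL (Fin n) l, (∀ p ∈ van (G : Set (GL (Fin n) k)),
        ev (g : Mt n l) (MvPolynomial.map f p) = 0) → g ∈ G'

section ld

variable {k G : Type} [Field k] [Group G] (L : LD k G)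

/-- split linear packages: one coordinate for each positive root -/
structure Sp : Prop where
  ok : L.Ok
  inj : Function.Injective L.dg
  red : ∀ j, ∃ γ ∈ L.R.Φ, L.dg j = L.N • γ

/-- a parametrisation of the root group of `γ` -/
structure Cv (γ : L.R.Q) (P : Mt L.n (Polynomial k)) (x : k → G) : Prop where
  ev : ∀ t, L.ρ (x t) = P.map (Polynomial.eval t)
  add : ∀ s t, x (s + t) = x s * x t
  mem : ∀ g, g ∈ L.X γ ↔ ∃ t, g = x t
  inj : ∀ t, x t = 1 → t = 0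
  deg : ∀ a b (m : ℕ), (P a b).coeff m ≠ 0 → L.wt a = L.wt b + (L.N * m) • γ
  one : ∃ a b, (P a b).coeff 1 ≠ 0

/-- the pinning of a linear package -/
structure Pk (S : Pn k L.n L.R) (x y : Fin L.R.r → k → G) (h : Fin L.R.r → kˣ → G) : Prop where
  ok : L.Ok
  cx : ∀ i, Cv L (L.R.α i) (S.X i) (x i)
  cy : ∀ i, Cv L (-L.R.α i) (S.Y i) (y i)
  mu : ∀ i a, (L.N : ℤ) * S.μ i a = L.R.pr (L.wt a) i
  hh : ∀ i u, L.ρ (h i u) = (dgU (S.μ i) u).1
  xy : ∀ i (t s : k) (u : kˣ), (u : k) = 1 + t * s →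
    x i t * y i s = y i (s / u) * h i u * x i (t / u)
  wl : ∀ i (t : kˣ), L.Rep (y i (-(t⁻¹ : kˣ)) * x i t * y i (-(t⁻¹ : kˣ))) (L.R.sE i) ∧
    y i (-(t⁻¹ : kˣ)) * x i t * y i (-(t⁻¹ : kˣ)) = h i t * (y i (-1) * x i 1 * y i (-1))
  un : ∀ i t s s' r r', L.Rep (y i s * x i t * y i s') (L.R.sE i) →
    L.Rep (y i r * x i t * y i r') (L.R.sE i) → s = r ∧ s' = r'

end ld

/-- the root groups have dimension one -/
def ONE : Prop :=
  ∀ (n : ℕ) (k K : Type) [NontriviallyNormedField k] [ProperSpace k] [Field K] [Algebra k K]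
    [IsAlgClosed K] (G : Subgroup (GL (Fin n) k)) (𝔤 : Submodule k (Mt n k)), Red G 𝔤 → Ext K G →
    ∀ (α β : Y G →+ ℤ), α ≠ 0 → ∀ c c' : ℕ, 0 < c → 0 < c' → c' • α = c • β →
    ∀ X X' : Mt n k, X ∈ 𝔤 ⊓ WS G (· = α) → X' ∈ 𝔤 ⊓ WS G (· = β) →
    ∀ q q' : Mt n k →ₗ[k] k, q X = 1 → q X' = 0 → q' X = 0 → q' X' = 1 → False

/-- the split linear package -/
def ASM : Prop :=
  ∀ (n : ℕ) (k K : Type) [NontriviallyNormedField k] [ProperSpace k] [Field K] [Algebra k K]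
    [IsAlgClosed K] (G : Subgroup (GL (Fin n) k)) (𝔤 : Submodule k (Mt n k)), Red G 𝔤 → Ext K G →
    Y G ≠ ⊥ → ∃ R N m wt τ dg e x l,
      Sp (k := k) (G := G) ⟨R, n, N, m, (Units.coeHom _).comp G.subtype, wt, τ, dg, e, x, l⟩

/-- the root curves -/
def CUR : Prop :=
  ∀ (k G : Type) [Field k] [Infinite k] [Group G] (L : LD k G), Sp L → ∀ i,
    (∃ P x, Cv L (L.R.α i) P x) ∧ ∃ P x, Cv L (-L.R.α i) P x

/-- the relations of rank one -/
def SL2 : Prop :=
  ∀ (k G : Type) [Field k] [Infinite k] [Group G] (L : LD k G), L.Ok →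
    (∀ i, (∃ P x, Cv L (L.R.α i) P x) ∧ ∃ P x, Cv L (-L.R.α i) P x) → ∃ S x y h, Pk L S x y h

/-- opposite root groups of different simple roots commute -/
def CM : Prop :=
  ∀ (k G : Type) [Field k] [Group G] (L : LD k G), L.Ok → ∀ i j, i ≠ j →
    ∀ u ∈ L.X (L.R.α i), ∀ v ∈ L.X (-L.R.α j), u * v = v * u

/-- the centraliser of the torus is diagonal -/
def CEN : Prop :=
  ∀ (k G : Type) [Field k] [Infinite k] [Group G] (L : LD k G) S x y h, Pk L S x y h →
    ∀ g ∈ L.Gp, (∀ a b, L.ρ g a b ≠ 0 → S.wt a = S.wt b) → ∀ a b, a ≠ b → L.ρ g a b = 0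

/-- the hypothesis of `ONE` and `ASM` -/
def EXR : Prop :=
  ∀ (F Ω : Type) [NontriviallyNormedField F] [ProperSpace F] [IsUltrametricDist F]
    [NontriviallyNormedField Ω] [NormedAlgebra F Ω] [IsUltrametricDist Ω] [IsAlgClosed Ω]
    [Algebra.IsAlgebraic F Ω] (n : ℕ) (G : Subgroup (GL (Fin n) Ω)), AbsSimple F G → Max Ω G →
    Ext Ω (pts F G)

/-- the assembly -/
def TOPR : Prop := RED → EXR → ASM → CUR → SL2 → CM → CEN → RK1

end Vale.Agent.P011IR
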