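import Vale.Agent.P011I.IF
import Vale.Agent.P011IT.Img

/-!
P011I (helper30): the structure theory over the fields of definition, and the maximal torus is
not trivial.
-/

set_option autoImplicit false
set_option linter.all false

open Set Matrix Module

noncomputable section

namespace Vale.Agent.P011IR

open Vale.Agent.P092AG Vale.Agent.P092TO Vale.Agent.P092A2

section alg

variable {n : ℕ} {L Ω : Type} [Field L] [Field Ω] [Algebra L Ω] {G : Subgroup (GL (Fin n) Ω)}

/-- polynomial functions along a cocharacter are Laurent polynomials -/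
theorem laur (y : Fin n → ℤ) (p : Pl n Ω) : ∃ (N : ℕ) (q : Polynomial Ω), ∀ t : Ωˣ,
    (t : Ω) ^ N * ev (tor y t : GL (Fin n) Ω).1 p = q.eval (t : Ω) := by
  induction p using MvPolynomial.induction_on with
  | C c => exact ⟨0, Polynomial.C c, fun t => by simp [ev_C]⟩
  | add p q hp hq =>
    obtain ⟨N, a, ha⟩ := hp
    obtain ⟨M, b, hb⟩ := hq
    refine ⟨N + M, Polynomial.X ^ M * a + Polynomial.X ^ N * b, fun t => ?_⟩
    simp only [map_add, Polynomial.eval_add, Polynomial.eval_mul, Polynomial.eval_pow,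
      Polynomial.eval_X, ← ha, ← hb]
    ring
  | mul_X p e hp =>
    obtain ⟨N, a, ha⟩ := hp
    obtain ⟨i, j⟩ := e
    by_cases h : i = j
    · subst h
      refine ⟨N + (y i).natAbs, a * Polynomial.X ^ (((y i).natAbs : ℤ) + y i).toNat, fun t => ?_⟩
      rw [map_mul, ev_X, Polynomial.eval_mul, ← ha, Polynomial.eval_pow, Polynomial.eval_X,
        ← zpow_natCast (t : Ω) (Int.toNat _), Int.toNat_of_nonneg (by omega),
        zpow_add₀ t.ne_zero, zpow_natCast]
      simp only [tor, diagonal_apply_eq, Units.val_zpow_eq_zpow_val]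
      ring
    · exact ⟨0, 0, fun t => by rw [map_mul, ev_X]; simp [tor, diagonal_apply_ne _ h]⟩

theorem io_tor (y : Fin n → ℤ) (t : Lˣ) :
    io L Ω n (tor y t) = tor y (Units.map (algebraMap L Ω).toMonoidHom t) := by
  ext i j
  by_cases h : i = j
  · subst h
    simp [io_val, tor]
  · simp [io_val, tor, diagonal_apply_ne _ h]

theorem Y_pts [Infinite L] (h : ZCl (G : Set (GL (Fin n) Ω))) : Y (pts L G) = Y G := by
  ext y
  refine ⟨fun hy t => h _ fun p hp => ?_, fun hy t => ?_⟩
  · obtain ⟨N, q, hq⟩ := laur y p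
    have h0 : q = 0 := by
      refine Polynomial.eq_zero_of_infinite_isRoot q (Set.Infinite.mono ?_
        (((Set.finite_singleton (0 : L)).infinite_compl).image (algebraMap L Ω).injective.injOn))
      rintro _ ⟨s, hs, rfl⟩
      have h1 := hq (Units.map (algebraMap L Ω).toMonoidHom (Units.mk0 s hs))
      rw [← io_tor, hp (io L Ω n (tor y (Units.mk0 s hs))) (hy _), mul_zero] at h1
      exact h1.symm
    have := hq t
    rw [h0, Polynomial.eval_zero] at this
    exact (mul_eq_zero.1 this).resolve_left (pow_ne_zero _ t.ne_zero)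
  · show io L Ω n (tor y t) ∈ G
    rw [io_tor]
    exact hy _

/-- a polynomial function on an irreducible closed set which omits infinitely many values is
constant -/
theorem const_of_omit [IsAlgClosed Ω] (hc : ZCl (G : Set (GL (Fin n) Ω)))
    (hp : (van (G : Set (GL (Fin n) Ω))).IsPrime) (hd : ∀ g ∈ G, g.1.det = 1) (p : Pl n Ω)
    (h : {c : Ω | ∀ g ∈ G, ev g.1 p ≠ c}.Infinite) : ∀ g ∈ G, ev g.1 p = ev (1 : Mt n Ω) p := by
  classical
  let B := Pl n Ω ⧸ van (G : Set (GL (Fin n) Ω))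
  let π : Pl n Ω →ₐ[Ω] B := Ideal.Quotient.mkₐ Ω _
  by_cases ha : IsAlgebraic Ω (π p)
  · obtain ⟨c, hc'⟩ := IsAlgClosed.algebraMap_bijective_of_isIntegral (k := Ω)
      (K := integralClosure Ω B) |>.2 ⟨π p, ha.isIntegral⟩
    have h1 : p - MvPolynomial.C c ∈ van (G : Set (GL (Fin n) Ω)) := by
      rw [← Ideal.Quotient.eq_zero_iff_mem, map_sub, sub_eq_zero]
      exact (congrArg Subtype.val hc').symm
    have h2 : ∀ g ∈ G, ev g.1 p = c := fun g hg => by
      have := h1 g hg
      rwa [map_sub, ev_C, sub_eq_zero] at this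
    exact fun g hg => (h2 g hg).trans (h2 1 G.one_mem).symm
  obtain ⟨b, h1, h2⟩ := P011IT.ext_pt (Polynomial.aeval (R := Ω) (π p))
  have hb : b ≠ 0 := fun e => h1 (by rw [e, map_zero])
  obtain ⟨c, c1, c2⟩ := h.exists_notMem_finset b.roots.toFinset
  obtain ⟨ψ, h3⟩ := h2 (Polynomial.aeval c) (fun a e => by
    rw [show a = 0 from by_contra fun d => ha ⟨a, d, e⟩, map_zero])
    fun e => c2 (Multiset.mem_toFinset.2 ((Polynomial.mem_roots hb).2 e))
  let x : Mt n Ω := of fun i j => ψ (π (MvPolynomial.X (i, j)))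
  have h4 : ∀ q, ev x q = ψ (π q) := fun q =>
    congrFun (congrArg DFunLike.coe (MvPolynomial.aeval_unique (ψ.comp π)).symm) q
  have h5 : ∀ q ∈ van (G : Set (GL (Fin n) Ω)), ev x q = 0 := fun q hq => by
    rw [h4, show π q = 0 from Ideal.Quotient.eq_zero_iff_mem.2 hq, map_zero]
  obtain ⟨r, hr⟩ := (PF.det (PF.entry (n := n) (R := Ω))).sub (PF.const 1)
  have h6 : x.det = 1 := sub_eq_zero.1 ((hr x).trans (h5 r fun g hg =>
    (hr _).symm.trans (sub_eq_zero.2 (hd g hg))))
  have h7 : IsUnit x := (isUnit_iff_isUnit_det x).2 (h6 ▸ isUnit_one)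
  refine (c1 h7.unit (hc _ h5) ?_).elim
  simpa using (h4 p).trans (by simpa using h3 Polynomial.X)

end alg

theorem red : P011I.RED := fun L Ω _ _ _ _ _ n G h hm => by
  have hY : Y (pts L G) = Y G := Y_pts h.closed
  have h1 : Max Ω (pts L G) := fun z hz => by
    obtain ⟨ν, h2, h3⟩ := hm (io L Ω n z) (mem_Zc.2 ⟨(mem_Zc.1 hz).1, fun y hy i j e => by
      rw [io_val, map_apply, (mem_Zc.1 hz).2 y (hY.ge hy) i j e, map_zero]⟩)
    refine ⟨ν, hY ▸ h2, fun i c ⟨v, v1, v2, v3⟩ => h3 i c ⟨v, v1, fun j hj => v2 j fun e =>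
      hj fun y hy => e y (hY.ge hy), ?_⟩⟩
    exact v3
  exact ⟨red_of Ω (P092A1.nice_pts h) (P092A1.simp_pts' h) h1, h1, hY⟩

theorem yne : P011I.YNE := fun F Ω _ _ _ _ n G h hm hY => by
  let ρ : Representation Ω G (Fin n → Ω) := (Matrix.toLinAlgEquiv' (R := Ω)).toMonoidHom.comp
    ((Units.coeHom _).comp G.subtype)
  have h1 := triv_rep {F : G → Ω | ∃ p : Pl n Ω, ∀ g : G, F g = ev g.1.1 p}
    (fun F ⟨p, hp⟩ ⟨C, hC⟩ g => by
      rw [hp, hp]
      refine const_of_omit h.closed h.conn (abs_det h) p ?_ g g.2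
      obtain ⟨t, ht⟩ := NormedField.exists_lt_norm Ω (max C 1)
      have h1 : 1 < ‖t‖ := (le_max_right _ _).trans_lt ht
      refine Set.infinite_of_injective_forall_mem (f := fun m : ℕ => t ^ (m + 1))
        (fun a b e => by
          have := congrArg norm e
          simp only [norm_pow] at this
          exact Nat.succ_injective (pow_right_injective₀ (by positivity) h1.ne' this))
        fun m g hg e => ?_
      have h2 := hC ⟨g, hg⟩ trivial
      rw [hp, e, norm_pow] at h2
      exact absurd (((le_max_left _ _).trans_lt ht).trans_le (le_self_pow₀ h1.le m.succ_ne_zero))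
        h2.not_gt)
    (fun F ⟨p, hp⟩ h2 g => by
      rcases finite_or_dense h (N := (commutator G).map G.subtype) (Subgroup.map_subtype_le _)
        subset_zcl subset_rfl (by
          rintro g hg _ ⟨y, hy, rfl⟩
          exact ⟨_, (inferInstance : (commutator G).Normal).conj_mem y hy ⟨g, hg⟩, rfl⟩) with e | e
      · obtain ⟨a, ha, b, hb, h3⟩ := h.ncomm
        exact (h3 (comm_of_finite h.conn e (fun g hg => ⟨_, Subgroup.commutator_mem_commutator
          (Subgroup.mem_top (⟨g, hg⟩ : G)) (Subgroup.mem_top (⟨b, hb⟩ : G)), rfl⟩) ha)).elim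
      · refine sub_eq_zero.1 (hp g ▸ zero_zcl ((PF.of p).sub (PF.const (F 1))) ?_ (e g.2))
        rintro _ ⟨y, hy, rfl⟩
        exact sub_eq_zero.2 ((hp y).symm.trans (h2 y hy)))
    _ _ ρ rfl (fun l v => by
      obtain ⟨p, hp⟩ : PF fun x : Mt n Ω => ∑ i, (∑ j, x i j * v j) * l (Pi.single i 1) :=
        PF.sum _ fun i _ => (PF.sum _ fun j _ => (PF.entry i j).mul (PF.const _)).mul (PF.const _)
      refine ⟨p, fun g => Eq.trans ?_ (hp _)⟩
      beta_reduce
      rw [← Finset.univ_sum_single (ρ g v), map_sum]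
      refine Finset.sum_congr rfl fun i _ => ?_
      rw [← smul_eq_mul, ← map_smul, ← Pi.single_smul, smul_eq_mul, mul_one]
      rfl)
    fun g c v hv e => (ell_of_max Ω hm hY g.2 c ⟨v, hv, fun _ h => (h trivial).elim, e⟩).le
  have h2 : ∀ g ∈ G, g = 1 := fun g hg => Units.ext (Matrix.toLin'.injective
    (LinearMap.ext fun v => (h1 ⟨g, hg⟩ v).trans (by simp)))
  obtain ⟨a, ha, b, hb, h3⟩ := h.ncomm
  exact h3 (by rw [h2 a ha, h2 b hb])

end Vale.Agent.P011IR
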