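import Vale.Agent.P011IR.IF

/-!
The root groups of a split group have dimension one.
-/

set_option autoImplicit false
set_option linter.all false

open Matrix Finset

namespace Vale.Agent.P011IR

open Vale.Agent.P092AG Vale.Agent.P092CQ
open Vale.Agent.P092AL (Fl Pp Un Lv)

theorem ff_map {R S ι : Type} [CommRing R] [CommRing S] [Fintype ι] [DecidableEq ι] (θ : R →+* S)
    (y : ι → ℤ) (g : Matrix ι ι R) : θ (P092AL.ff y g) = P092AL.ff y (g.map θ) := by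
  have h : ∀ c, θ.mapMatrix (P092AL.pj R y c) = P092AL.pj S y c := fun c => by
    ext i j
    simp only [P092AL.pj, RingHom.mapMatrix_apply, map_apply, diagonal_apply]
    split_ifs <;> simp
  have h2 : ∀ c, θ (P092AL.mn y c g) = P092AL.mn y c (g.map θ) := fun c => by
    rw [P092AL.mn, P092AL.mn, RingHom.map_det, P092AL.tr, P092AL.tr, map_add, map_sub, map_one, map_mul,
      map_mul, h, RingHom.mapMatrix_apply]
  simp only [P092AL.ff, map_prod, map_mul, h2]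

theorem ev_hom {l l2 A : Type} [Field l] [Field l2] [CommRing A] [Algebra l A] {n : ℕ} (f : l →+* l2)
    (θ : A →+* l2) (h : ∀ c, θ (algebraMap l A c) = f c) (M : Matrix (Fin n) (Fin n) A) (p : Pl n l) :
    ev (M.map θ) (MvPolynomial.map f p) = θ (MvPolynomial.aeval (fun a => M a.1 a.2) p) := by
  induction p using MvPolynomial.induction_on with
  | C c => rw [MvPolynomial.map_C, ev_C, MvPolynomial.aeval_C, h]
  | add p q hp hq => rw [map_add, map_add, map_add, map_add, hp, hq]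
  | mul_X p a hp =>
    rw [map_mul, map_mul, map_mul, map_mul, hp, MvPolynomial.map_X, MvPolynomial.aeval_X,
      show a = (a.1, a.2) from rfl, ev_X, map_apply]

/-- A polynomial in two variables over an algebraically closed field has no isolated zero. -/
theorem two_var {l K : Type} [Field l] [Field K] [Algebra l K] [IsAlgClosed K]
    (φ : MvPolynomial (Fin 2) l) (h0 : MvPolynomial.aeval (![0, 0] : Fin 2 → K) φ = 0)
    (h : ∀ a b : K, MvPolynomial.aeval ![a, b] φ = 0 → a = 0 ∧ b = 0) : False := by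
  have k : ∀ (p q : Polynomial K) (t : K), (MvPolynomial.aeval ![p, q] φ).eval t =
      MvPolynomial.aeval ![p.eval t, q.eval t] φ := fun p q t => by
    clear h0 h
    induction φ using MvPolynomial.induction_on with
    | C c => simp
    | add p q hp hq => rw [map_add, map_add, Polynomial.eval_add, hp, hq]
    | mul_X p a hp =>
      rw [map_mul, map_mul, Polynomial.eval_mul, hp, MvPolynomial.aeval_X, MvPolynomial.aeval_X]
      fin_cases a <;> rfl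
  have h1 : ∀ b : K, b ≠ 0 → MvPolynomial.aeval ![1, b] φ = MvPolynomial.aeval ![0, b] φ := fun b hb => by
    have e := Polynomial.eq_C_of_degree_le_zero (p := MvPolynomial.aeval ![Polynomial.X, Polynomial.C b] φ)
      (not_lt.1 fun c => by
        obtain ⟨a, ha⟩ := IsAlgClosed.exists_root _ c.ne'
        rw [Polynomial.IsRoot, k, Polynomial.eval_X, Polynomial.eval_C] at ha
        exact hb (h _ _ ha).2)
    have e1 := k Polynomial.X (Polynomial.C b) 1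
    have e0 := k Polynomial.X (Polynomial.C b) 0
    rw [e, Polynomial.eval_C, Polynomial.eval_X, Polynomial.eval_C] at e1 e0
    exact e1.symm.trans e0
  have h2 : PT fun b : K => MvPolynomial.aeval ![1, b] φ - MvPolynomial.aeval ![0, b] φ :=
    ⟨MvPolynomial.aeval ![1, Polynomial.X] φ - MvPolynomial.aeval ![0, Polynomial.X] φ, fun t => by
      rw [Polynomial.eval_sub, k, k, Polynomial.eval_one, Polynomial.eval_zero, Polynomial.eval_X]⟩
  have h3 := h2.eq_of_units (c := 0) (fun t => sub_eq_zero.2 (h1 _ t.ne_zero)) 0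
  rw [h0, sub_zero] at h3
  exact one_ne_zero (h _ _ h3).1

section loc

variable {n : ℕ} {k : Type} [NontriviallyNormedField k] {G : Subgroup (GL (Fin n) k)}
  {𝔤 : Submodule k (Mt n k)} {u m : GL (Fin n) k}

theorem tw_of {y y' : Fin n → ℤ} (h : ∀ i j, (m : Mt n k) i j ≠ 0 → y i = y' j) : Tw m y y' := fun t =>
  Units.ext (Matrix.ext fun i j => by
    rw [Units.val_mul, Units.val_mul, tor_val, tor_val, diagonal_mul, mul_diagonal, mul_comm]
    by_cases e : (m : Mt n k) i j = 0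
    · rw [e, zero_mul, zero_mul]
    · rw [h i j e])

/-- The reflection is unique. -/
theorem refl_uniq {Yl : AddSubgroup (Fin n → ℤ)} {α : Yl →+ ℤ} {σ σ' : Equiv.Perm (Fin n)} {y : Yl}
    (h1 : ∀ z : Yl, α z = 0 → z.1 ∘ σ = z.1) (h2 : ∀ z : Yl, α z = 0 → z.1 ∘ σ' = z.1)
    (h3 : y.1 ∘ σ ∈ Yl) (h4 : y.1 ∘ σ' ∈ Yl) (h5 : α ⟨_, h3⟩ = α ⟨_, h4⟩) : y.1 ∘ σ = y.1 ∘ σ' := by
  have e : α (⟨_, h3⟩ - ⟨_, h4⟩) = 0 := by rw [map_sub, h5, sub_self]
  have a := comp_equiv_dotProduct_comp_equiv (y.1 ∘ σ - y.1 ∘ σ') y.1 σ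
  have b := comp_equiv_dotProduct_comp_equiv (y.1 ∘ σ - y.1 ∘ σ') y.1 σ'
  rw [show (y.1 ∘ σ - y.1 ∘ σ') ∘ σ = y.1 ∘ σ - y.1 ∘ σ' from h1 _ e] at a
  rw [show (y.1 ∘ σ - y.1 ∘ σ') ∘ σ' = y.1 ∘ σ - y.1 ∘ σ' from h2 _ e] at b
  rw [← sub_eq_zero, ← dotProduct_self_eq_zero, dotProduct_sub, a, b, sub_self]

theorem fy_zero {s y y' : Fin n → ℤ} (h : Tw m y y') (hm : m ∈ Lgl s) (hs : Sg s y (-y'))
    (hu : u ∈ Lgl s) (hu' : u ∈ Ugl y) (h1 : u ≠ 1) : fy y ((m⁻¹ : GL (Fin n) k) : Mt n k) = 0 := by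
  by_contra c
  have a : m⁻¹ * u * m⁻¹⁻¹ ∈ Ugl (-y) := hs.neg.symm.U (mul_mem (mul_mem (inv_mem hm) hu)
    (inv_mem (inv_mem hm))) (by rw [neg_neg]; exact h.inv.U hu')
  have b := conj_mem_Ugl (md_up_mem c) hu'
  have d := conj_mem_Ugl (Ugl_le_Pgl _ (inv_mem (loG_mem y m⁻¹))) a
  rw [show (loG y m⁻¹)⁻¹ * (m⁻¹ * u * m⁻¹⁻¹) * (loG y m⁻¹)⁻¹⁻¹ =
    mdG y m⁻¹ * upG y m⁻¹ * u * (mdG y m⁻¹ * upG y m⁻¹)⁻¹ by rw [mdG]; group] at d
  exact h1 (conj_eq_one_iff.1 (eq_one_of b (Ugl_le_Pgl _ d)))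

variable [ProperSpace k]

theorem fy_ne (H : Red G 𝔤) {α : Y G →+ ℤ} {s y : Y G} (hs : Gen G α s) (hy : Reg G y.1) (h0 : 0 < α y)
    (hα : ∀ z : Y G, Reg G z → α z ≠ 0) {σ : Equiv.Perm (Fin n)}
    (h1 : ∀ z : Y G, α z = 0 → z.1 ∘ σ = z.1) (h2 : y.1 ∘ σ ∈ Y G) (h3 : α ⟨_, h2⟩ = -α y)
    (h4 : Tw m y.1 (y.1 ∘ σ)) (hu : u ∈ G ⊓ Lgl s.1 ⊓ Ugl y.1) (h5 : u ≠ 1) :
    fy y.1 ((u * m⁻¹ : GL (Fin n) k) : Mt n k) ≠ 0 := by
  obtain ⟨v, a, v', b, σ', c, -⟩ := H.rgd' hs hy hα hu h5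
  have d := tw_perm c.nm c.ne y.2
  have e := d.2
  rw [← refl_uniq h1 c.fix h2 d.1 (h3.trans (c.neg y).symm)] at e
  have f : v * u * v' * m⁻¹ ∈ Lgl y.1 := mem_Lgl_of_comm fun t => by
    rw [← mul_assoc, e t, mul_assoc, h4.inv t, ← mul_assoc]
  have g : m * v'⁻¹ * m⁻¹ ∈ Ugl y.1 := h4.U (by
    have := (hs.sg (z := -⟨_, h2⟩) h0 (by rw [map_neg, h3]; omega)).neg.U (inv_mem b.1.2) (inv_mem b.2)
    simpa using this)
  rw [show u * m⁻¹ = v⁻¹ * (v * u * v' * m⁻¹ * (m * v'⁻¹ * m⁻¹)) by group, Units.val_mul,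
    fy_left (Ugl_le_Pgl _ (inv_mem a.2)), fy_U (inv_mem a.2), one_mul]
  exact fy_P_ne (mul_mem (Lgl_le_Pgl _ f) (Ugl_le_Pgl _ g))

omit [ProperSpace k] in
theorem pf_lin (q : Mt n k →ₗ[k] k) : PF fun z => q (z - 1) := by
  have : ∀ z : Mt n k, q (z - 1) = ∑ i, ∑ j, z i j * q (single i j 1) - q 1 := fun z => by
    conv_lhs => rw [map_sub, matrix_eq_sum_single z]
    simp only [map_sum]
    refine congrArg (· - _) (sum_congr rfl fun p _ => sum_congr rfl fun r _ => ?_)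
    rw [show single p r (z p r) = z p r • single p r 1 by simp, map_smul, smul_eq_mul]
  simp only [this]
  exact (PF.sum _ fun i _ => PF.sum _ fun j _ => (PF.entry i j).mul (PF.const _)).sub (PF.const _)

theorem chart2 {π : Module.End k (Mt n k)} {θ σ : Mt n k → Mt n k} (E : EC G 𝔤 π θ σ) (y : Y G)
    (b : Fin 2 → Mt n k) (hb : ∀ t : Fin 2 → k, ∑ j, t j • b j ∈ 𝔤 ⊓ FS k y.1 1) :
    ∃ (x : (Fin 2 → k) → GL (Fin n) k) (M : Mt n (MvPolynomial (Fin 2) k)),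
      (∀ t, x t ∈ G ⊓ Ugl y.1) ∧ (∀ t, π ((x t : Mt n k) - 1) = ∑ j, t j • b j) ∧
      ∀ t, M.map (MvPolynomial.eval t) = (x t : Mt n k) := by
  obtain ⟨Ψ, p1, p2⟩ := E.poly y.2
  choose P hP using p1
  choose x x1 x2 using fun t => E.surj y.2 (hb t).1 (hb t).2
  refine ⟨x, of fun p q => MvPolynomial.bind₁
    (fun a => ∑ j, MvPolynomial.X j * MvPolynomial.C (b j a.1 a.2)) (P p q), x1, x2,
    fun t => Matrix.ext fun p q => ?_⟩
  rw [← p2 _ (x1 t), x2]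
  exact (ev_bind b t (P p q)).trans (hP p q _).symm

omit [ProperSpace k] in
theorem up_one {l : Type} [NontriviallyNormedField l] [ProperSpace l] (f : k →+* l)
    {G' : Subgroup (GL (Fin n) l)} {𝔤' : Submodule l (Mt n l)} (H' : Red G' 𝔤') (j2 : Y G' = Y G)
    (j3 : ∀ g : GL (Fin n) l, (∀ p ∈ van (G : Set (GL (Fin n) k)),
      ev (g : Mt n l) (MvPolynomial.map f p) = 0) → g ∈ G')
    {α : Y G →+ ℤ} {s y : Y G} (hs : Gen G α s) (h1 : Reg G y.1) (h2 : 0 < α y)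
    (hα : ∀ z : Y G, Reg G z → α z ≠ 0) {σ : Equiv.Perm (Fin n)} (v3 : Rf G α m σ)
    {x : (Fin 2 → k) → GL (Fin n) k} {M : Mt n (MvPolynomial (Fin 2) k)}
    (x1 : ∀ t, x t ∈ G ⊓ Ugl y.1) (x3 : ∀ t, x t ∈ Lgl s.1)
    (e1 : ∀ t, M.map (MvPolynomial.eval t) = (x t : Mt n k)) (φ : MvPolynomial (Fin 2) k →+* l)
    (f1 : ∀ c, φ (MvPolynomial.C c) = f c)
    (o : φ (P092AL.ff y.1 (M * ((m⁻¹ : GL (Fin n) k) : Mt n k).map MvPolynomial.C)) = 0)
    (p : Pl n k) (r : MvPolynomial (Fin 2) k) (h : ∀ t, ev (x t : Mt n k) p = MvPolynomial.eval t r) :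
    φ r = f (ev 1 p) := by
  have e2 : ∀ (p : Pl n k) (r : MvPolynomial (Fin 2) k), (∀ t, ev (x t : Mt n k) p = MvPolynomial.eval t r) →
      MvPolynomial.aeval (fun a => M a.1 a.2) p = r := fun p r o => MvPolynomial.funext fun t => by
    rw [← o, ← e1, ← ev_hom (RingHom.id k) _ fun c => MvPolynomial.eval_C c, MvPolynomial.map_id]
  have e3 : ∀ i j (c : k), (∀ t, (x t : Mt n k) i j = c) → M i j = MvPolynomial.C c := fun i j c o =>
    MvPolynomial.funext fun t => by rw [MvPolynomial.eval_C, ← o t, ← e1, map_apply]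
  have v4 := tw_perm v3.nm v3.ne y.2
  have f3 : ∀ i j, φ (MvPolynomial.C ((1 : Mt n k) i j)) = (1 : Mt n l) i j := fun i j => by
    rw [f1, one_apply, one_apply]
    split_ifs <;> simp
  have f4 : IsU y.1 (M.map φ) := fun i j o => by
    rw [map_apply, e3 i j _ fun t => (x1 t).2 i j o, f3]
  obtain ⟨u, f5⟩ := (isUnit_iff_isUnit_det _).2 (isU_un.1 f4).unit
  have f6 : ∀ (p : Pl n k) (r : MvPolynomial (Fin 2) k), (∀ t, ev (x t : Mt n k) p = MvPolynomial.eval t r) →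
      ev (u : Mt n l) (MvPolynomial.map f p) = φ r := fun p r o => by
    rw [f5, ev_hom f φ f1, e2 p r o]
  have f7 : u = 1 := by
    by_contra c
    let ι := AddSubgroup.inclusion j2.le
    refine fy_ne H' (α := α.comp ι) (s := ⟨s.1, j2.ge s.2⟩) (y := ⟨y.1, j2.ge y.2⟩)
      (m := Matrix.GeneralLinearGroup.map f m) ⟨hs.1, fun i j o z hz => hs.2 i j o (ι z) hz⟩
      ⟨j2.ge y.2, fun i j o z hz => h1.2 i j o z (j2.le hz)⟩ h2
      (fun z hz => hα (ι z) ⟨(ι z).2, fun i j o w hw => hz.2 i j o w (j2.ge hw)⟩)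
      (fun z hz => v3.fix (ι z) hz) (j2.ge v4.1) (v3.neg y)
      (tw_of fun i j o => v4.2.wt fun d => o (by
        show f ((m : Mt n k) i j) = 0
        rw [d, map_zero]))
      ⟨⟨j3 u fun p hp => (f6 p 0 fun t => (hp _ (x1 t).1).trans (map_zero _).symm).trans (map_zero _),
        fun i j o => by rw [f5, map_apply, e3 i j _ fun t => x3 t i j o, f1, map_zero]⟩,
        mem_Ugl.2 (f5.symm ▸ f4)⟩ c ?_
    rw [ff_map, Matrix.map_mul, Matrix.map_map, show φ ∘ MvPolynomial.C = f from funext f1, ← f5] at o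
    rw [← map_inv]
    exact o
  have d := ev_hom f f (fun _ => rfl) (1 : Mt n k) p
  rw [← f6 p r h, f7, Units.val_one, ← Matrix.map_one f (map_zero f) (map_one f), d]
  rfl

end loc

/-- **The root groups have dimension one.** -/
theorem one : ONE := fun n k K _ _ _ _ _ G 𝔤 H hE α β hα c c' hc hc' e X X' hX hX' q q' q1 q2 q3 q4 => by
  have a1 : α ∈ Rt G 𝔤 := ⟨hα, X, hX.1, fun o => by simp [o] at q1, hX.2⟩
  have e' : ∀ z, (c' : ℤ) * α z = c * β z := fun z => by simpa using DFunLike.congr_fun e z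
  obtain ⟨y, h1, h2⟩ : ∃ y : Y G, Reg G y ∧ 0 < α y := by
    obtain ⟨y, hy⟩ := exists_reg G
    rcases (Rt_reg a1 ⟨y, hy.1⟩ hy).lt_or_gt with c | c
    · exact ⟨-⟨y, hy.1⟩, hy.neg, by rwa [map_neg, neg_pos]⟩
    · exact ⟨_, hy, c⟩
  obtain ⟨s, hs⟩ := exists_Gen α
  have h3 : 0 < β y := by
    have : (0 : ℤ) < c * β y := by rw [← e']; positivity
    exact (mul_pos_iff_of_pos_left (by exact_mod_cast hc)).1 this
  have h4 : β s = 0 := by
    have := e' s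
    rw [hs.1, mul_zero, eq_comm, mul_eq_zero] at this
    exact this.resolve_left (by exact_mod_cast hc.ne')
  obtain ⟨π, θ, σ0, E⟩ := H.nice.chart.ec
  have b1 : ∀ t : Fin 2 → k, ∑ j, t j • ![X, X'] j = t 0 • X + t 1 • X' := fun t => Fin.sum_univ_two _
  have b2 : ∀ t : Fin 2 → k, ∑ j, t j • ![X, X'] j ∈ 𝔤 ⊓ WS G fun γ => 1 ≤ γ y ∧ γ s = 0 := fun t =>
    b1 t ▸ add_mem (Submodule.smul_mem _ _ ⟨hX.1, WS_mono (fun _ o => o ▸ ⟨h2, hs.1⟩) hX.2⟩)
      (Submodule.smul_mem _ _ ⟨hX'.1, WS_mono (fun _ o => o ▸ ⟨h3, h4⟩) hX'.2⟩)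
  obtain ⟨x, M, x1, x2, e1⟩ := chart2 E y ![X, X'] fun t =>
    ⟨(b2 t).1, FS_eq (R := k) y 1 ▸ WS_mono (fun _ o => o.1) (b2 t).2⟩
  have x3 : ∀ t, x t ∈ Lgl s.1 := fun t => E.mem_L y.2 s.2 (x1 t) fun i j o =>
    sub_eq_zero.1 ((b2 t).2 i j (x2 t ▸ o)).2
  have x0 : x 0 = 1 := E.inj y.2 (x1 0) (one_mem _) ((x2 0).trans (by simp))
  have u1 : x ![1, 0] ≠ 1 := fun o => by
    have := congrArg q (x2 ![1, 0])
    rw [o, b1] at this
    simp [q1] at this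
  obtain ⟨v, v1, v', v2, σ, v3, -⟩ := H.rgd' hs h1 (Rt_reg a1) ⟨⟨(x1 _).1, x3 _⟩, (x1 _).2⟩ u1
  have v4 := tw_perm v3.nm v3.ne y.2
  have v5 := fy_zero v4.2 (mul_mem (mul_mem v1.1.2 (x3 _)) v2.1.2)
    (hs.sg (z := -⟨_, v4.1⟩) h2 (by rw [map_neg, v3.neg]; omega)) (x3 _) (x1 _).2 u1
  generalize v * x ![1, 0] * v' = m at v3 v5
  refine two_var (K := K) (P092AL.ff y.1 (M * ((m⁻¹ : GL (Fin n) k) : Mt n k).map MvPolynomial.C)) ?_
    fun a a' o => ?_
  · have := ff_map (MvPolynomial.eval (0 : Fin 2 → k)) y.1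
      (M * ((m⁻¹ : GL (Fin n) k) : Mt n k).map MvPolynomial.C)
    rw [Matrix.map_mul, e1, x0, Units.val_one, one_mul, Matrix.map_map,
      show (MvPolynomial.eval (0 : Fin 2 → k)) ∘ MvPolynomial.C = id from funext fun c => MvPolynomial.eval_C c,
      Matrix.map_id, MvPolynomial.eval_zero] at this
    rw [show (![0, 0] : Fin 2 → K) = 0 from funext fun i => by fin_cases i <;> rfl, MvPolynomial.aeval_zero,
      this.trans v5, map_zero]
  obtain ⟨l, _, _, f, j, G', 𝔤', j1, ⟨a, rfl⟩, ⟨a', rfl⟩, H', j2, j3⟩ := hE a a'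
  have f1 : ∀ c : k, MvPolynomial.eval₂Hom f ![a, a'] (MvPolynomial.C c) = f c := fun c =>
    MvPolynomial.eval₂Hom_C _ _ c
  have f2 : ∀ r : MvPolynomial (Fin 2) k, MvPolynomial.aeval ![j a, j a'] r =
      j (MvPolynomial.eval₂Hom f ![a, a'] r) := fun r => by
    induction r using MvPolynomial.induction_on with
    | C c => rw [MvPolynomial.aeval_C, f1, j1]
    | add p q hp hq => rw [map_add, map_add, map_add, hp, hq]
    | mul_X p i hp =>
      rw [map_mul, map_mul, map_mul, hp, MvPolynomial.aeval_X, MvPolynomial.eval₂Hom_X']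
      fin_cases i <;> rfl
  rw [f2, map_eq_zero] at o
  have f8 : ∀ (q : Mt n k →ₗ[k] k) (i : Fin 2), (∀ t : Fin 2 → k, q (t 0 • X + t 1 • X') = t i) →
      ![a, a'] i = 0 := fun q i h => by
    obtain ⟨p, hp⟩ : ∃ p : Pl n k, ∀ z, q (π (z - 1)) = ev z p := pf_lin (q ∘ₗ π)
    have := up_one f H' j2 j3 hs h1 h2 (Rt_reg a1) v3 x1 x3 e1 _ f1 o p (MvPolynomial.X i) fun t => by
      rw [← hp, x2, b1, h, MvPolynomial.eval_X]
    rwa [MvPolynomial.eval₂Hom_X', ← hp, sub_self, map_zero, map_zero, map_zero] at this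
  exact ⟨(congrArg j (f8 q 0 fun t => by simp [q1, q2])).trans (map_zero j),
    (congrArg j (f8 q' 1 fun t => by simp [q3, q4])).trans (map_zero j)⟩

end Vale.Agent.P011IR
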