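import Vale.Agent.P011IR.IF

/-!
The relations of rank one.
-/

set_option autoImplicit false
set_option linter.all false

namespace Vale.Agent.P011IR

open Matrix Vale.Agent.P183CH Vale.Agent.P183CH.Chev Vale.Agent.P092AG Vale.Agent.P092GP
  Vale.Agent.P011I Vale.Agent.P092GP.LD

theorem add_zero' {k G : Type} [Field k] [Group G] {z : k → G} (h : ∀ t u, z (t + u) = z t * z u) :
    z 0 = 1 := left_eq_mul.1 ((congrArg z (add_zero 0)).symm.trans (h 0 0))

theorem add_neg' {k G : Type} [Field k] [Group G] {z : k → G} (h : ∀ t u, z (t + u) = z t * z u)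
    (t : k) : z (-t) = (z t)⁻¹ :=
  eq_inv_of_mul_eq_one_right (by rw [← h, add_neg_cancel, add_zero' h])

theorem xy_of {k G : Type} [Field k] [Group G] {x y : k → G} {h : kˣ → G} {n : G}
    (hx : ∀ t u, x (t + u) = x t * x u) (hy : ∀ t u, y (t + u) = y t * y u)
    (hh : ∀ t u, h (t * u) = h t * h u)
    (h1 : ∀ (t : kˣ) s, h t * y s = y ((t ^ (-2 : ℤ) : kˣ) * s) * h t)
    (h2 : ∀ t : kˣ, y (-(t⁻¹ : kˣ)) * x t * y (-(t⁻¹ : kˣ)) = h t * n)
    (h3 : ∀ t : kˣ, x t * y (-(t⁻¹ : kˣ)) * x t = h t * n) (t s : k) (u : kˣ)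
    (e : (u : k) = 1 + t * s) : x t * y s = y (s / u) * h u * x (t / u) := by
  have h0 : h 1 = 1 := left_eq_mul.1 ((congrArg h (mul_one 1)).symm.trans (hh 1 1))
  rcases eq_or_ne t 0 with rfl | c
  · rw [zero_mul, add_zero] at e
    rw [show u = 1 from Units.ext e, h0, Units.val_one, div_one, div_one, add_zero' hx, one_mul, mul_one,
      mul_one]
  lift t to kˣ using c.isUnit
  have a : ∀ r : kˣ, n * x r = y (-r) * n := fun r => mul_left_cancel (a := h r) (by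
    rw [← mul_assoc, ← h2, ← mul_assoc (h r), h1, mul_assoc (y _) (h r), ← h3,
      show ((r ^ (-2 : ℤ) : kˣ) : k) * -r = -(r⁻¹ : kˣ) by simp; field_simp]
    simp only [mul_assoc])
  obtain ⟨r, rfl⟩ : ∃ r, t = u * r := ⟨u⁻¹ * t, by group⟩
  have b : y s = y (-((u * r)⁻¹ : kˣ)) * (x r * (h r * n)⁻¹ * x r) := by
    have : s = -((u * r)⁻¹ : kˣ) + -(-(r⁻¹ : kˣ) : k) := by
      have := r.ne_zero
      have := u.ne_zero
      simp only [Units.val_mul, Units.val_inv_eq_inv_val] at e ⊢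
      field_simp
      linear_combination -e
    rw [this, hy, add_neg' hy (-_), ← h3]
    group
  have d : s / u = -(-((u * r)⁻¹ : kˣ) : k) + ((u * r) ^ (-2 : ℤ) : kˣ) * -(r : k) := by
    have := r.ne_zero
    have := u.ne_zero
    simp only [Units.val_mul, Units.val_inv_eq_inv_val, Units.val_zpow_eq_zpow_val] at e ⊢
    field_simp
    linear_combination -e
  rw [b, d, hy, add_neg' hy (-_), show ((u * r : kˣ) : k) / u = r by simp, ← mul_assoc, eq_comm,
    mul_assoc, mul_assoc, inv_mul_eq_iff_eq_mul, ← mul_assoc (y _) (x _ * _), ← mul_assoc (y _) (x _), h2,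
    ← mul_assoc, ← mul_assoc, ← mul_assoc, mul_assoc _ n, a, ← mul_assoc, h1, hh]
  group

variable {k G : Type} [Field k] [Group G] {L : LD k G} {γ : L.R.Q} {P Q : Mt L.n (Polynomial k)}
  {x y : k → G} {i : Fin L.R.r}

theorem Cv.mem' (c : Cv L γ P x) (t : k) : x t ∈ L.X γ := (c.mem _).2 ⟨t, rfl⟩

theorem Cv.scale (c : Cv L γ P x) {g : Fin L.n → ℤ} {e : ℤ}
    (h : ∀ a b (m : ℕ), L.wt a = L.wt b + (L.N * m) • γ → g a = g b + e * m) (t : kˣ) (s : k) :
    (dgU g t).1 * L.ρ (x s) = L.ρ (x ((t ^ e : kˣ) * s)) * (dgU g t).1 := by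
  ext a b
  show (diagonal _ * _ : Mt L.n k) a b = (_ * diagonal _ : Mt L.n k) a b
  rw [diagonal_mul, mul_diagonal, c.ev, c.ev, map_apply, map_apply, Polynomial.eval_eq_sum_range,
    Polynomial.eval_eq_sum_range, Finset.mul_sum, Finset.sum_mul]
  refine Finset.sum_congr rfl fun m _ => ?_
  by_cases o : (P a b).coeff m = 0
  · rw [o, zero_mul, zero_mul, zero_mul, mul_zero]
  · rw [h a b m (c.deg a b m o), _root_.zpow_add, _root_.zpow_mul, zpow_natCast, Units.val_mul,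
      Units.val_pow_eq_pow_val, mul_pow]
    ring

theorem Cv.resc (c : Cv L γ P x) {b : k} (hb : b ≠ 0) :
    Cv L γ (P.map fun p => p.comp (Polynomial.C b * Polynomial.X)) fun s => x (b * s) where
  ev t := by
    rw [c.ev]
    ext i j
    simp [Polynomial.eval_comp]
  add s t := by rw [mul_add, c.add]
  mem g := (c.mem g).trans ⟨fun ⟨t, e⟩ => ⟨b⁻¹ * t, by rw [mul_inv_cancel_left₀ hb, e]⟩,
    fun ⟨t, e⟩ => ⟨_, e⟩⟩
  inj t e := (mul_eq_zero.1 (c.inj _ e)).resolve_left hb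
  deg i j m e := c.deg i j m fun o => e (by
    rw [map_apply, Polynomial.comp_C_mul_X_coeff, o, zero_mul])
  one := c.one.imp fun i e => e.imp fun j e => by
    rw [map_apply, Polynomial.comp_C_mul_X_coeff]
    exact mul_ne_zero e (pow_ne_zero _ hb)

theorem Cv.un (c : Cv L γ P x) (H : L.Ok) (e : γ = L.R.α i ∨ γ = -L.R.α i) {g : G} {s s' r r' : k}
    (a : L.Rep (x s * g * x s') (L.R.sE i)) (b : L.Rep (x r * g * x r') (L.R.sE i)) :
    s = r ∧ s' = r' := by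
  have h1 := (a.div b).1
  have h2 := b.conj_X (c.mem' (s' - r'))
  have h3 := c.mem' (s - r)
  have h4 : x s * g * x s' * (x r * g * x r')⁻¹ =
      x (s - r) * (x r * g * x r' * x (s' - r') * (x r * g * x r')⁻¹) := by
    rw [mul_assoc (x r * g), ← c.add, add_sub_cancel, sub_eq_add_neg, c.add, add_neg' c.add]
    group
  have h5 := H.α_pos i
  have h6 : x (s - r) = 1 ∧ x r * g * x r' * x (s' - r') * (x r * g * x r')⁻¹ = 1 := by
    rcases e with rfl | rfl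
    · rw [H.root.sE_α] at h2
      obtain ⟨o1, -, o2⟩ := H.cell_uniq (inv_mem (X_le_Um (neg_lt_zero.2 h5) h2)) (one_mem _) (one_mem _)
        (inv_mem h1) (inv_mem (X_le_Up h5 h3)) (one_mem _) (by rw [h4]; group)
      exact ⟨inv_eq_one.1 o2, inv_eq_one.1 o1⟩
    · rw [map_neg, H.root.sE_α, neg_neg] at h2
      obtain ⟨o1, -, o2⟩ := H.cell_uniq (X_le_Um (neg_lt_zero.2 h5) h3) (one_mem _) (one_mem _)
        h1 (X_le_Up h5 h2) (one_mem _) (by rw [h4]; group)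
      exact ⟨o1, o2⟩
  exact ⟨sub_eq_zero.1 (c.inj _ h6.1), sub_eq_zero.1 (c.inj _ (conj_eq_one_iff.1 h6.2))⟩

theorem Cv.pd (c : Cv L γ P x) {E : AddSubmonoid L.R.Q} (h : L.N • γ ∈ E) (t : k) :
    x t ∈ PD L.wt L.ρ E := sup_iff.2 fun a b e => by
  rw [c.ev, map_apply, Polynomial.eval_eq_sum_range] at e
  obtain ⟨m, -, e⟩ := Finset.exists_ne_zero_of_sum_ne_zero e
  rw [c.deg a b m (left_ne_zero_of_mul e), add_sub_cancel_left, mul_nsmul]
  exact nsmul_mem h m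

/-- the coroot -/
theorem exists_h (H : L.Ok) (cx : Cv L (L.R.α i) P x) (cy : Cv L (-L.R.α i) Q y) {b b' : k}
    (a : L.Rep (y b * x 1 * y b') (L.R.sE i)) :
    (∀ p, (L.N : ℤ) * (L.R.pr (L.wt p) i / L.N) = L.R.pr (L.wt p) i) ∧ ∀ t : kˣ,
      L.ρ (y ((t⁻¹ : kˣ) * b) * x t * y ((t⁻¹ : kˣ) * b')) =
        (dgU (fun p => L.R.pr (L.wt p) i / L.N) t).1 * L.ρ (y b * x 1 * y b') := by
  have h0 : (L.N : ℤ) ≠ 0 := by exact_mod_cast H.npos.ne'
  let E := (AddSubgroup.zmultiples (L.N • L.R.α i)).toAddSubmonoid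
  have e1 : L.N • L.R.α i ∈ E := AddSubgroup.mem_zmultiples _
  have e2 : L.N • -L.R.α i ∈ E := AddSubgroup.mem_zmultiples_iff.2 ⟨-1, by simp⟩
  have h1 : ∀ p q, L.ρ (y b * x 1 * y b') p q ≠ 0 → ∃ d : ℤ, L.R.pr (L.wt p) i = L.N * d ∧
      L.wt p i = L.wt q i + L.N * d := fun p q o => by
    obtain ⟨d, e⟩ := sup_iff.1 (mul_mem (mul_mem (cy.pd e2 b) (cx.pd e1 1)) (cy.pd e2 b')) p q o
    have f := congrArg (L.R.sE i) (ty_iff.1 a p q o)
    rw [H.root.sE_sE, H.root.sE_apply] at f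
    have f1 := congrFun f i
    have f2 := congrFun e i
    simp [RS.s, RS.α] at f1 f2
    exact ⟨d, by linear_combination -f1 - f2, by linear_combination -f2⟩
  refine ⟨fun p => ?_, fun t => ?_⟩
  · obtain ⟨σ, hσ⟩ := P092GP.exists_perm (rho_det_ne (ρ := L.ρ) (y b * x 1 * y b'))
    obtain ⟨d, e, -⟩ := h1 _ _ (hσ (σ.symm p))
    rw [σ.apply_symm_apply] at e
    rw [e, Int.mul_ediv_cancel_left _ h0]
  have g1 := cx.scale (g := fun p => L.wt p i / L.N) (e := 1) (fun p q m o => by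
    rw [congrFun o i]
    simp [RS.α, Int.add_mul_ediv_left _ _ h0]) t
  have g2 := cy.scale (g := fun p => L.wt p i / L.N) (e := -1) (fun p q m o => by
    rw [congrFun o i, show (L.wt q + (L.N * m) • -L.R.α i) i = L.wt q i + L.N * (-1 * m) by simp [RS.α],
      Int.add_mul_ediv_left _ _ h0]) t
  refine (Units.mul_left_inj (dgU (fun p => L.wt p i / L.N) t)).1 ?_
  have g3 := g1 1
  rw [_root_.zpow_one, mul_one] at g3
  simp only [_root_.zpow_neg_one] at g2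
  rw [map_mul, map_mul, mul_assoc, ← g2, ← mul_assoc, mul_assoc (L.ρ _), ← g3, ← mul_assoc, ← g2,
    mul_assoc, mul_assoc, ← map_mul, ← map_mul, ← mul_assoc (y b)]
  ext p q
  show (diagonal _ * _ : Mt L.n k) p q = (diagonal _ * _ * diagonal _ : Mt L.n k) p q
  rw [mul_diagonal, diagonal_mul, diagonal_mul]
  by_cases o : L.ρ (y b * x 1 * y b') p q = 0
  · rw [o, mul_zero, mul_zero, zero_mul]
  · obtain ⟨d, e, f⟩ := h1 p q o
    simp only [e, f, Int.mul_ediv_cancel_left _ h0, Int.add_mul_ediv_left _ _ h0, _root_.zpow_add,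
      Units.val_mul]
    ring

theorem rank_one (H : L.Ok) (cx : Cv L (L.R.α i) P x) (cy : Cv L (-L.R.α i) Q y) :
    ∃ (μ : Fin L.n → ℤ) (Q' : Mt L.n (Polynomial k)) (z : k → G) (h : kˣ → G), Cv L (-L.R.α i) Q' z ∧
      (∀ a, (L.N : ℤ) * μ a = L.R.pr (L.wt a) i) ∧ (∀ u, L.ρ (h u) = (dgU μ u).1) ∧
      (∀ (t s : k) (u : kˣ), (u : k) = 1 + t * s → x t * z s = z (s / u) * h u * x (t / u)) ∧
      ∀ t : kˣ, L.Rep (z (-(t⁻¹ : kˣ)) * x t * z (-(t⁻¹ : kˣ))) (L.R.sE i) ∧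
        z (-(t⁻¹ : kˣ)) * x t * z (-(t⁻¹ : kˣ)) = h t * (z (-1) * x 1 * z (-1)) := by
  obtain ⟨v, a, v', a', c⟩ := H.weyl' (cx.mem' 1) fun o => one_ne_zero (cx.inj _ o)
  obtain ⟨b, rfl⟩ := (cy.mem _).1 a
  obtain ⟨b', rfl⟩ := (cy.mem _).1 a'
  obtain ⟨h1, h2⟩ := exists_h H cx cy c
  have h0 : (L.N : ℤ) ≠ 0 := by exact_mod_cast H.npos.ne'
  let h : kˣ → G := fun t => y ((t⁻¹ : kˣ) * b) * x t * y ((t⁻¹ : kˣ) * b') * (y b * x 1 * y b')⁻¹
  have h3 : ∀ t, L.ρ (h t) = (dgU (fun p => L.R.pr (L.wt p) i / L.N) t).1 := fun t => by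
    rw [map_mul, h2, mul_assoc, rho_mul_inv, mul_one]
  have h4 : ∀ t : kˣ, L.Rep (y ((t⁻¹ : kˣ) * b) * x t * y ((t⁻¹ : kˣ) * b')) (L.R.sE i) := fun t => by
    have := c.Z0_mul (z := h t) (by
      rw [Z0, mem_PD, h3]
      exact Sup.diagonal (AddSubmonoid.zero_mem _) _)
    rwa [inv_mul_cancel_right] at this
  obtain rfl : b' = b := by
    have d := c.inv
    rw [H.root.sE_inv, show (y b * x 1 * y b')⁻¹ = y (-b') * x (-1 : kˣ) * y (-b) by
      rw [Units.val_neg, Units.val_one, add_neg' cy.add, add_neg' cy.add, add_neg' cx.add]; group] at d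
    simpa using (cy.un H (Or.inr rfl) d (h4 (-1))).1
  have h5 : -b' ≠ 0 := neg_ne_zero.2 fun o => by
    rw [o, add_zero' cy.add, one_mul, mul_one] at c
    have d := H.root.sE_α i
    rw [H.rep_B c (RS.sE_mem_W i) (Up_le_B (X_le_Up (H.α_pos i) (cx.mem' 1)))] at d
    simpa [RS.α] using congrFun d i
  have cz := cy.resc h5
  have h6 : ∀ t : kˣ, -b' * -((t⁻¹ : kˣ) : k) = (t⁻¹ : kˣ) * b' := fun t => by ring
  have h7 : ∀ t : kˣ, y (-b' * -((t⁻¹ : kˣ) : k)) * x t * y (-b' * -((t⁻¹ : kˣ) : k)) =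
      h t * (y (-b' * -1) * x 1 * y (-b' * -1)) := fun t => by
    rw [h6, neg_mul_neg, mul_one, inv_mul_cancel_right]
  refine ⟨_, _, _, h, cz, h1, h3, xy_of cx.add cz.add (fun t u => H.inj (by
    rw [h3, map_mul L.ρ, h3, h3, map_mul, Units.val_mul])) (fun t s => H.inj ?_) h7 fun t => ?_,
    fun t => ⟨h6 t ▸ h4 t, h7 t⟩⟩
  · rw [map_mul L.ρ (h t), map_mul L.ρ _ (h t), h3]
    refine cz.scale (fun p q m o => mul_left_cancel₀ h0 ?_) t s
    rw [mul_add, h1, h1, o, RS.pr_add, ← natCast_zsmul, RS.pr_smul, RS.pr_neg, RS.pr_α, H.root.diag]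
    push_cast
    ring
  · have d := h4 t
    rw [← h7, h6]
    generalize ((t⁻¹ : kˣ) : k) * b' = s at d ⊢
    have d1 := d.conj_X (cy.mem' s)
    have d2 := d.inv.conj_X (cy.mem' s)
    rw [H.root.sE_inv] at d2
    rw [map_neg, H.root.sE_α, neg_neg, cx.mem] at d1 d2
    obtain ⟨r, e1⟩ := d1
    obtain ⟨r', e2⟩ := d2
    have f1 : x r * y s * x t = y s * x t * y s := by rw [← e1]; group
    have f2 : x t * y s * x r' = y s * x t * y s := by rw [← e2]; group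
    have f3 : r = t := (cx.un H (Or.inl rfl) (s' := t) (r' := r') (by rwa [f1]) (by rwa [f2])).1
    rw [← f1, f3]

theorem sl2 : SL2 := fun k G _ _ _ L H h => by
  choose P x cx using fun i => (h i).1
  choose Q y cy using fun i => (h i).2
  choose μ Q' z t h1 h2 h3 h4 h5 using fun i => rank_one H (cx i) (cy i)
  exact ⟨⟨μ, P, Q'⟩, x, z, t, H, cx, h1, h2, h3, h4, h5,
    fun i _ _ _ _ _ a b => (h1 i).un H (Or.inr rfl) a b⟩

end Vale.Agent.P011IR
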